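import Vale.Agent.P141.H958.WeakW

/-!
# P141, line (A): nested families with packing

* abstract: a finite set `s` with an ancestor relation `le` (reflexive, transitive, the ancestors of
  a member are linearly ordered by the scale `κ`), weights `w`, packing
  `∑ a ≤ c, w a ≤ B * w c` for every member `c`; `cnt s le a` = number of members above `a`;
  `tail_le`: the members with more than `lam` members above them have weight at most
  `(1 - B⁻¹) ^ lam` times the total weight;
* squares: `Inn a i`, `cq N R S Q a`, `pack_tail` for `Aff N R S Q` and `PackQ N R S Q B`.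
-/

namespace Vale.Agent.P141.H4

open Finset Vale.Agent.P141.PL Vale.Agent.P141.H958

noncomputable section

open scoped Classical

/-! ### Abstract families -/

section

variable {α : Type*}

/-- the ancestors of a member are linearly ordered by the scale -/
structure Tre (s : Finset α) (le : α → α → Prop) (κ : α → ℕ) : Prop where
  refl : ∀ a, le a a
  trans : ∀ a b c, le a b → le b c → le a c
  lin : ∀ a b c, le a b → le a c → κ b ≤ κ c → le b c
  mono : ∀ a b, le a b → κ a ≤ κ b
  eq : ∀ a ∈ s, ∀ b ∈ s, le a b → κ a = κ b → a = b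

/-- number of the members above `a` (with `a` itself, if it is a member) -/
def cnt (s : Finset α) (le : α → α → Prop) (a : α) : ℕ := (s.filter fun i => le a i).card

variable {s : Finset α} {le : α → α → Prop} {κ : α → ℕ}

theorem cnt_pos (h : Tre s le κ) {a : α} (ha : a ∈ s) : 1 ≤ cnt s le a := by
  unfold cnt
  rw [Nat.succ_le_iff, card_pos]
  exact ⟨a, mem_filter.2 ⟨ha, h.refl a⟩⟩

/-- a member inside another one has more members above it -/
theorem cnt_lt (h : Tre s le κ) {a b : α} (ha : a ∈ s) (hb : b ∈ s) (hab : le a b) (hne : a ≠ b) :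
    cnt s le b < cnt s le a := by
  unfold cnt
  refine card_lt_card ?_
  rw [ssubset_iff_of_subset]
  · refine ⟨a, mem_filter.2 ⟨ha, h.refl a⟩, fun hc => hne ?_⟩
    have h1 := (mem_filter.1 hc).2
    exact h.eq a ha b hb hab (le_antisymm (h.mono _ _ hab) (h.mono _ _ h1))
  · intro i hi
    rw [mem_filter] at hi ⊢
    exact ⟨hi.1, h.trans _ _ _ hab hi.2⟩

/-- two members with the same count below which a common `a` lies are equal -/
theorem cnt_inj (h : Tre s le κ) {a b c : α} (hb : b ∈ s) (hc : c ∈ s) (hab : le a b)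
    (hac : le a c) (he : cnt s le b = cnt s le c) : b = c := by
  by_contra hne
  rcases le_total (κ b) (κ c) with hk | hk
  · have h1 := h.lin a b c hab hac hk
    have h2 := cnt_lt h hb hc h1 hne
    omega
  · have h1 := h.lin a c b hac hab hk
    have h2 := cnt_lt h hc hb h1 (Ne.symm hne)
    omega

/-- the next member above -/
theorem exists_up (h : Tre s le κ) {a : α} (ha : a ∈ s) (h2 : 2 ≤ cnt s le a) :
    ∃ b ∈ s, le a b ∧ cnt s le b + 1 = cnt s le a := by
  have hm : a ∈ s.filter fun i => le a i := mem_filter.2 ⟨ha, h.refl a⟩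
  have h2' : 2 ≤ (s.filter fun i => le a i).card := h2
  have hcard := card_erase_of_mem hm
  have hne : ((s.filter fun i => le a i).erase a).Nonempty := by
    rw [← card_pos, hcard]
    omega
  obtain ⟨b, hb, hmin⟩ := exists_min_image _ κ hne
  rw [mem_erase, mem_filter] at hb
  refine ⟨b, hb.2.1, hb.2.2, ?_⟩
  have e : (s.filter fun i => le b i) = (s.filter fun i => le a i).erase a := by
    ext j
    rw [mem_erase, mem_filter, mem_filter]
    constructor
    · rintro ⟨hj, hbj⟩
      refine ⟨?_, hj, h.trans _ _ _ hb.2.2 hbj⟩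
      rintro rfl
      exact hb.1 (h.eq j ha b hb.2.1 hb.2.2
        (le_antisymm (h.mono _ _ hb.2.2) (h.mono _ _ hbj))).symm
    · rintro ⟨hja, hj, haj⟩
      refine ⟨hj, h.lin a b j hb.2.2 haj (hmin j ?_)⟩
      rw [mem_erase, mem_filter]
      exact ⟨hja, hj, haj⟩
  show (s.filter fun i => le b i).card + 1 = (s.filter fun i => le a i).card
  rw [e, hcard]
  omega

/-- every count between `1` and the count of `a` is the count of a member above `a` -/
theorem exists_cnt (h : Tre s le κ) {i : ℕ} (hi : 1 ≤ i) : ∀ (m : ℕ) {a : α}, a ∈ s →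
    cnt s le a = i + m → ∃ b ∈ s, le a b ∧ cnt s le b = i := by
  intro m
  induction m with
  | zero => exact fun {a} ha he => ⟨a, ha, h.refl a, he⟩
  | succ m ih =>
    intro a ha he
    obtain ⟨b, hb, hab, hc⟩ := exists_up h ha (by omega)
    obtain ⟨c, hcs, hbc, he'⟩ := ih hb (by omega)
    exact ⟨c, hcs, h.trans _ _ _ hab hbc, he'⟩

theorem exists_cnt' (h : Tre s le κ) {i : ℕ} (hi : 1 ≤ i) {a : α} (ha : a ∈ s)
    (hc : i ≤ cnt s le a) : ∃ b ∈ s, le a b ∧ cnt s le b = i :=
  exists_cnt h hi (cnt s le a - i) ha (by omega)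

variable {w : α → ℝ} {B : ℝ}

/-- the tail of the counts is at most `B` times its first generation -/
theorem tail_gen (h : Tre s le κ) (hw : ∀ a ∈ s, 0 ≤ w a)
    (hP : ∀ c ∈ s, ∑ a ∈ s.filter (fun a => le a c), w a ≤ B * w c) {i : ℕ} (hi : 1 ≤ i) :
    ∑ a ∈ s.filter (fun a => i ≤ cnt s le a), w a ≤
      B * ∑ c ∈ s.filter (fun c => cnt s le c = i), w c := by
  have h1 : ∑ a ∈ s.filter (fun a => i ≤ cnt s le a), w a ≤
      ∑ a ∈ s.filter (fun a => i ≤ cnt s le a), ∑ c ∈ s.filter (fun c => cnt s le c = i),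
        (if le a c then w a else 0) := by
    refine sum_le_sum fun a ha => ?_
    rw [mem_filter] at ha
    obtain ⟨b, hb, hab, hc⟩ := exists_cnt' h hi ha.1 ha.2
    have h2 := single_le_sum (s := s.filter (fun c => cnt s le c = i))
      (f := fun c => if le a c then w a else 0)
      (fun c _ => by
        show (0 : ℝ) ≤ if le a c then w a else 0
        split_ifs
        · exact hw a ha.1
        · exact le_rfl) (mem_filter.2 ⟨hb, hc⟩)
    refine le_trans (le_of_eq ?_) h2
    show w a = if le a b then w a else 0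
    rw [if_pos hab]
  refine h1.trans ?_
  rw [sum_comm, mul_sum]
  refine sum_le_sum fun c hc => ?_
  rw [mem_filter] at hc
  refine le_trans ?_ (hP c hc.1)
  rw [← sum_filter, filter_filter]
  refine sum_le_sum_of_subset_of_nonneg ?_ fun a ha _ => hw a (mem_filter.1 ha).1
  intro a ha
  rw [mem_filter] at ha ⊢
  exact ⟨ha.1, ha.2.2⟩

/-- **Nested families with packing**: the members with more than `lam` members above them. -/
theorem tail_le (h : Tre s le κ) (hw : ∀ a ∈ s, 0 ≤ w a) (hB : 1 ≤ B)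
    (hP : ∀ c ∈ s, ∑ a ∈ s.filter (fun a => le a c), w a ≤ B * w c) (lam : ℕ) :
    ∑ a ∈ s.filter (fun a => lam < cnt s le a), w a ≤ (1 - B⁻¹) ^ lam * ∑ a ∈ s, w a := by
  have hB0 : 0 < B := by linarith
  induction lam with
  | zero =>
    rw [pow_zero, one_mul]
    exact sum_le_sum_of_subset_of_nonneg (filter_subset _ _) fun a ha _ => hw a ha
  | succ m ih =>
    have e : ∑ a ∈ s.filter (fun a => m < cnt s le a), w a =
        ∑ a ∈ s.filter (fun a => m + 1 < cnt s le a), w a +
          ∑ c ∈ s.filter (fun c => cnt s le c = m + 1), w c := by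
      rw [← sum_union]
      · refine sum_congr ?_ fun _ _ => rfl
        ext a
        rw [mem_union, mem_filter, mem_filter, mem_filter]
        constructor
        · rintro ⟨h1, h2⟩
          by_cases h3 : cnt s le a = m + 1
          · exact Or.inr ⟨h1, h3⟩
          · exact Or.inl ⟨h1, by omega⟩
        · rintro (⟨h1, h2⟩ | ⟨h1, h2⟩)
          · exact ⟨h1, by omega⟩
          · exact ⟨h1, by omega⟩
      · rw [disjoint_left]
        intro a h1 h2
        rw [mem_filter] at h1 h2
        omega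
    have h1 := tail_gen h hw hP (i := m + 1) (by omega)
    have e2 : s.filter (fun a => m + 1 ≤ cnt s le a) = s.filter (fun a => m < cnt s le a) :=
      filter_congr fun a _ => by rw [Nat.succ_le_iff]
    rw [e2] at h1
    have h2 : B⁻¹ * ∑ a ∈ s.filter (fun a => m < cnt s le a), w a ≤
        ∑ c ∈ s.filter (fun c => cnt s le c = m + 1), w c := by
      rw [inv_mul_le_iff₀ hB0]
      exact h1
    have h3 : 0 ≤ 1 - B⁻¹ := by
      have := inv_le_one_of_one_le₀ hB
      linarith
    calc ∑ a ∈ s.filter (fun a => m + 1 < cnt s le a), w a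
        ≤ (1 - B⁻¹) * ∑ a ∈ s.filter (fun a => m < cnt s le a), w a := by linarith
      _ ≤ (1 - B⁻¹) * ((1 - B⁻¹) ^ m * ∑ a ∈ s, w a) := mul_le_mul_of_nonneg_left ih h3
      _ = (1 - B⁻¹) ^ (m + 1) * ∑ a ∈ s, w a := by ring

/-- the sum of a function over the members with at most `lam` members above them, generation by
generation -/
theorem sum_gens (h : Tre s le κ) (f : α → ℝ) (lam : ℕ) :
    ∑ a ∈ s.filter (fun a => cnt s le a ≤ lam), f a =
      ∑ i ∈ Icc 1 lam, ∑ a ∈ s.filter (fun a => cnt s le a = i), f a := by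
  have h1 : ∀ a ∈ s.filter (fun a => cnt s le a ≤ lam), cnt s le a ∈ Icc 1 lam := by
    intro a ha
    rw [mem_filter] at ha
    rw [mem_Icc]
    exact ⟨cnt_pos h ha.1, ha.2⟩
  rw [← sum_fiberwise_of_maps_to h1]
  refine sum_congr rfl fun i hi => ?_
  rw [filter_filter]
  refine sum_congr (filter_congr fun a _ => ?_) fun _ _ => rfl
  rw [mem_Icc] at hi
  constructor
  · exact fun h2 => h2.2
  · exact fun h2 => ⟨by omega, h2⟩

end

/-! ### Squares -/

/-- the square `i` contains the square `a` -/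
def Inn (a i : ℕ × ℤ × ℤ) : Prop :=
  a.1 ≤ i.1 ∧ ix (i.1 - a.1) a.2.1 = i.2.1 ∧ ix (i.1 - a.1) a.2.2 = i.2.2

theorem ix_zero' (x : ℤ) : ix 0 x = x := by
  unfold ix
  simp

theorem tre_sq (s : Finset (ℕ × ℤ × ℤ)) : Tre s Inn (fun a => a.1) where
  refl a := ⟨le_rfl, by rw [Nat.sub_self, ix_zero'], by rw [Nat.sub_self, ix_zero']⟩
  trans a b c h1 h2 := by
    obtain ⟨h11, h12, h13⟩ := h1
    obtain ⟨h21, h22, h23⟩ := h2
    refine ⟨h11.trans h21, ?_, ?_⟩
    · rw [← h22, ← h12, ix_ix]
      congr 1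
      omega
    · rw [← h23, ← h13, ix_ix]
      congr 1
      omega
  lin a b c h1 h2 hk := by
    obtain ⟨h11, h12, h13⟩ := h1
    obtain ⟨h21, h22, h23⟩ := h2
    refine ⟨hk, ?_, ?_⟩
    · rw [← h12, ← h22, ix_ix]
      congr 1
      omega
    · rw [← h13, ← h23, ix_ix]
      congr 1
      omega
  mono a b h := h.1
  eq a _ b _ h hk := by
    obtain ⟨h1, h2, h3⟩ := h
    have hk' : b.1 - a.1 = 0 := by
      have : a.1 = b.1 := hk
      omega
    rw [hk', ix_zero'] at h2 h3
    exact Prod.ext hk (Prod.ext h2 h3)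

/-- number of the affected squares which contain the square `a` -/
def cq (N : ℕ) (R S : ℤ) (Q : ℕ → ℤ → ℤ → Prop) (a : ℕ × ℤ × ℤ) : ℕ := cnt (Aff N R S Q) Inn a

theorem pack_sq {N : ℕ} {R S : ℤ} {Q : ℕ → ℤ → ℤ → Prop} {B : ℝ} (hP : PackQ N R S Q B) :
    ∀ c ∈ Aff N R S Q, ∑ a ∈ (Aff N R S Q).filter (fun a => Inn a c), (4 : ℝ) ^ a.1 ≤
      B * 4 ^ c.1 := by
  intro c hc
  refine le_trans (le_of_eq ?_) (hP c.1 (mem_Aff.1 hc).1.le c.2.1 c.2.2)
  exact sum_congr (filter_congr fun a _ => Iff.rfl) fun _ _ => rfl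

theorem pack_all {N : ℕ} {R S : ℤ} {Q : ℕ → ℤ → ℤ → Prop} {B : ℝ} (hP : PackQ N R S Q B) :
    ∑ a ∈ Aff N R S Q, (4 : ℝ) ^ a.1 ≤ B * 4 ^ N := by
  refine le_trans (le_of_eq ?_) (hP N le_rfl R S)
  refine sum_congr ?_ fun _ _ => rfl
  ext a
  rw [mem_filter]
  constructor
  · intro ha
    have h := mem_Aff.1 ha
    exact ⟨ha, h.1.le, mem_iv.1 h.2.1, mem_iv.1 h.2.2.1⟩
  · exact fun h => h.1

/-- **Squares**: the affected squares with more than `lam` affected squares above them. -/
theorem pack_tail {N : ℕ} {R S : ℤ} {Q : ℕ → ℤ → ℤ → Prop} {B : ℝ} (hP : PackQ N R S Q B)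
    (hB : 1 ≤ B) (lam : ℕ) :
    ∑ a ∈ (Aff N R S Q).filter (fun a => lam < cq N R S Q a), (4 : ℝ) ^ a.1 ≤
      B * (1 - B⁻¹) ^ lam * 4 ^ N := by
  have h1 := tail_le (w := fun a : ℕ × ℤ × ℤ => (4 : ℝ) ^ a.1) (tre_sq (Aff N R S Q))
    (fun a _ => by positivity) hB (pack_sq hP) lam
  have h3 : 0 ≤ 1 - B⁻¹ := by
    have := inv_le_one_of_one_le₀ hB
    linarith
  calc _ ≤ (1 - B⁻¹) ^ lam * ∑ a ∈ Aff N R S Q, (4 : ℝ) ^ a.1 := h1
    _ ≤ (1 - B⁻¹) ^ lam * (B * 4 ^ N) :=
        mul_le_mul_of_nonneg_left (pack_all hP) (pow_nonneg h3 _)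
    _ = _ := by ring

/-- two affected squares of the same generation which contain a common square are equal -/
theorem cq_inj {N : ℕ} {R S : ℤ} {Q : ℕ → ℤ → ℤ → Prop} {a b c : ℕ × ℤ × ℤ}
    (hb : b ∈ Aff N R S Q) (hc : c ∈ Aff N R S Q) (hab : Inn a b) (hac : Inn a c)
    (he : cq N R S Q b = cq N R S Q c) : b = c :=
  cnt_inj (tre_sq (Aff N R S Q)) hb hc hab hac he

/-- generation by generation -/
theorem sum_gens_sq {N : ℕ} {R S : ℤ} {Q : ℕ → ℤ → ℤ → Prop} (f : ℕ × ℤ × ℤ → ℝ) (lam : ℕ) :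
    ∑ a ∈ (Aff N R S Q).filter (fun a => cq N R S Q a ≤ lam), f a =
      ∑ i ∈ Icc 1 lam, ∑ a ∈ (Aff N R S Q).filter (fun a => cq N R S Q a = i), f a :=
  sum_gens (tre_sq (Aff N R S Q)) f lam

end

end Vale.Agent.P141.H4
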